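import Mathlib

/-! Absorption of monochromatic clusters by special sets: abstract graph form.
`lab` is a labelling, `spec` the special labels, `out` the label of the vertices outside. -/

open Set

namespace Vale.Agent.P116.H657.Abs

variable {A L : Type*} (adj : A → A → Prop) (lab : A → L) (spec : Set L)

/-- one step inside the set `X` -/
def St (X : Set A) (x y : A) : Prop := x ∈ X ∧ y ∈ X ∧ adj x y

/-- `X` is connected for `adj` -/
def Cn (X : Set A) : Prop := ∀ a ∈ X, ∀ b ∈ X, Relation.ReflTransGen (St adj X) a b

theorem St.mono {X Y : Set A} (h : X ⊆ Y) {x y : A} (hs : St adj X x y) : St adj Y x y :=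
  ⟨h hs.1, h hs.2.1, hs.2.2⟩

theorem rtg_mono {X Y : Set A} (h : X ⊆ Y) {x y : A} (hs : Relation.ReflTransGen (St adj X) x y) :
    Relation.ReflTransGen (St adj Y) x y := by
  induction hs with
  | refl => exact Relation.ReflTransGen.refl
  | tail _ h2 ih => exact Relation.ReflTransGen.tail ih (St.mono adj h h2)

theorem rtg_sym' {r : A → A → Prop} (hr : ∀ a b, r a b → r b a) {x y : A}
    (h : Relation.ReflTransGen r x y) : Relation.ReflTransGen r y x := by
  induction h with
  | refl => exact Relation.ReflTransGen.refl
  | tail _ h2 ih => exact Relation.ReflTransGen.head (hr _ _ h2) ih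

theorem rtg_symm (hs : ∀ a b, adj a b → adj b a) {X : Set A} {x y : A}
    (h : Relation.ReflTransGen (St adj X) x y) : Relation.ReflTransGen (St adj X) y x := by
  exact rtg_sym' (fun a b hab => ⟨hab.2.1, hab.1, hs _ _ hab.2.2⟩) h

/-- the monochromatic component -/
def comp (x : A) : Set A :=
  {y | Relation.ReflTransGen (fun a b => adj a b ∧ lab a = lab b) x y}

variable {adj lab spec}

theorem mem_comp (x : A) : x ∈ comp adj lab x := Relation.ReflTransGen.refl

theorem lab_comp {x y : A} (h : y ∈ comp adj lab x) : lab y = lab x := by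
  have h1 : Relation.ReflTransGen (fun a b => adj a b ∧ lab a = lab b) x y := h
  induction h1 with
  | refl => rfl
  | tail _ h2 ih => rw [← h2.2]; exact ih (by assumption)

theorem comp_symm (hs : ∀ a b, adj a b → adj b a) {x y : A} (h : y ∈ comp adj lab x) :
    x ∈ comp adj lab y := by
  exact rtg_sym' (fun a b hab => ⟨hs _ _ hab.1, hab.2.symm⟩) h

theorem comp_eq (hs : ∀ a b, adj a b → adj b a) {x y : A} (h : y ∈ comp adj lab x) :
    comp adj lab y = comp adj lab x := by
  ext z
  constructor
  · intro hz
    exact Relation.ReflTransGen.trans h hz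
  · intro hz
    exact Relation.ReflTransGen.trans (comp_symm hs h) hz

theorem comp_cn (hs : ∀ a b, adj a b → adj b a) (x : A) : Cn adj (comp adj lab x) := by
  have key : ∀ b, b ∈ comp adj lab x → Relation.ReflTransGen (St adj (comp adj lab x)) x b := by
    intro b hb
    have h1 : Relation.ReflTransGen (fun a b => adj a b ∧ lab a = lab b) x b := hb
    induction h1 with
    | refl => exact Relation.ReflTransGen.refl
    | @tail b c h2 h3 ih =>
      exact Relation.ReflTransGen.tail (ih h2) ⟨h2, hb, h3.1⟩
  intro a ha b hb
  exact Relation.ReflTransGen.trans (rtg_symm adj hs (key a ha)) (key b hb)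

open Classical in
/-- absorber of a set of vertices -/
noncomputable def abC (adj : A → A → Prop) (lab : A → L) (spec : Set L) (C : Set A) : Option L :=
  if h : ∃ l ∈ spec, ∃ y ∈ C, ∃ z, lab z = l ∧ adj y z then some h.choose else none

open Classical in
/-- absorber of a vertex -/
noncomputable def ab (adj : A → A → Prop) (lab : A → L) (spec : Set L) (x : A) : Option L :=
  if lab x ∈ spec then some (lab x) else abC adj lab spec (comp adj lab x)

open Classical in
/-- the class of a vertex -/
noncomputable def cls (adj : A → A → Prop) (lab : A → L) (spec : Set L) (x : A) : Set A :=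
  if ab adj lab spec x = none then comp adj lab x else {y | ab adj lab spec y = ab adj lab spec x}

theorem ab_comp (hs : ∀ a b, adj a b → adj b a) {x y : A} (h : y ∈ comp adj lab x) :
    ab adj lab spec y = ab adj lab spec x := by
  unfold ab
  rw [lab_comp h, comp_eq hs h]

theorem ab_none {x : A} (h : ab adj lab spec x = none) :
    lab x ∉ spec ∧ ∀ y ∈ comp adj lab x, ∀ z, adj y z → lab z ∉ spec := by
  unfold ab at h
  split_ifs at h with h1
  refine ⟨h1, ?_⟩
  unfold abC at h
  split_ifs at h with h2
  intro y hy z hyz hz
  exact h2 ⟨lab z, hz, y, hy, z, rfl, hyz⟩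

theorem ab_some {x : A} {l : L} (h : ab adj lab spec x = some l) :
    l ∈ spec ∧ (lab x = l ∨ (lab x ∉ spec ∧ ∃ y ∈ comp adj lab x, ∃ z, lab z = l ∧ adj y z)) := by
  unfold ab at h
  split_ifs at h with h1
  · have h2 : lab x = l := by simpa using h
    exact ⟨h2 ▸ h1, Or.inl h2⟩
  · unfold abC at h
    split_ifs at h with h2
    have h3 : h2.choose = l := by simpa using h
    have h4 := h2.choose_spec
    rw [h3] at h4
    exact ⟨h4.1, Or.inr ⟨h1, h4.2⟩⟩

theorem mem_cls (x : A) : x ∈ cls adj lab spec x := by
  unfold cls
  split_ifs with h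
  · exact mem_comp x
  · rfl

theorem comp_sub_cls (hs : ∀ a b, adj a b → adj b a) (x : A) : comp adj lab x ⊆ cls adj lab spec x := by
  intro y hy
  unfold cls
  split_ifs with h
  · exact hy
  · exact ab_comp hs hy

theorem ab_cls (hs : ∀ a b, adj a b → adj b a) {x y : A} (h : y ∈ cls adj lab spec x) :
    ab adj lab spec y = ab adj lab spec x := by
  unfold cls at h
  split_ifs at h with h1
  · exact ab_comp hs h
  · exact h

theorem cls_eq (hs : ∀ a b, adj a b → adj b a) {x y : A} (h : y ∈ cls adj lab spec x) :
    cls adj lab spec y = cls adj lab spec x := by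
  have h0 := ab_cls hs h
  unfold cls at h ⊢
  rw [h0]
  split_ifs at h ⊢ with h1
  · exact comp_eq hs h
  · rfl

/-- two adjacent vertices with the same label are in the same class -/
theorem cls_eq_of_adj (hs : ∀ a b, adj a b → adj b a) {x y : A} (h : adj x y) (hl : lab x = lab y) :
    cls adj lab spec x = cls adj lab spec y := by
  have h1 : y ∈ comp adj lab x := Relation.ReflTransGen.single ⟨h, hl⟩
  exact (cls_eq hs (comp_sub_cls hs x h1)).symm

/-- regular classes are monochromatic components, not adjacent to special vertices -/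
theorem cls_reg {x : A} (h : ab adj lab spec x = none) :
    cls adj lab spec x = comp adj lab x ∧ lab x ∉ spec ∧ (∀ y ∈ cls adj lab spec x, lab y = lab x) ∧
      ∀ y ∈ cls adj lab spec x, ∀ z, adj y z → lab z ∉ spec := by
  have h1 : cls adj lab spec x = comp adj lab x := by
    unfold cls
    rw [if_pos h]
  have h2 := ab_none h
  refine ⟨h1, h2.1, ?_, ?_⟩
  · intro y hy
    rw [h1] at hy
    exact lab_comp hy
  · intro y hy
    rw [h1] at hy
    exact h2.2 y hy

/-- special classes: one special label set and components adjacent to it -/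
theorem cls_spec {x : A} {l : L} (h : ab adj lab spec x = some l) :
    l ∈ spec ∧ ∀ y ∈ cls adj lab spec x, lab y = l ∨
      (lab y ∉ spec ∧ ∃ y' ∈ comp adj lab y, ∃ z, lab z = l ∧ adj y' z) := by
  have h1 : cls adj lab spec x = {y | ab adj lab spec y = some l} := by
    unfold cls
    rw [if_neg (by rw [h]; simp), h]
  refine ⟨(ab_some h).1, ?_⟩
  intro y hy
  rw [h1] at hy
  exact (ab_some hy).2

theorem lab_sub_cls {x z : A} {l : L} (h : ab adj lab spec x = some l) (hz : lab z = l) :
    z ∈ cls adj lab spec x := by
  have h1 : cls adj lab spec x = {y | ab adj lab spec y = some l} := by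
    unfold cls
    rw [if_neg (by rw [h]; simp), h]
  rw [h1]
  show ab adj lab spec z = some l
  unfold ab
  rw [if_pos (by rw [hz]; exact (ab_some h).1), hz]

/-- classes are connected -/
theorem cls_cn (hs : ∀ a b, adj a b → adj b a) (hc : ∀ l ∈ spec, Cn adj {x | lab x = l}) (x : A) :
    Cn adj (cls adj lab spec x) := by
  rcases hab : ab adj lab spec x with _ | l
  · rw [(cls_reg hab).1]
    exact comp_cn hs x
  · have hl : l ∈ spec := (ab_some hab).1
    -- every member is connected to some vertex of label `l`
    have key : ∀ y ∈ cls adj lab spec x, ∃ z, lab z = l ∧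
        Relation.ReflTransGen (St adj (cls adj lab spec x)) y z := by
      intro y hy
      rcases (cls_spec hab).2 y hy with h1 | ⟨_, y', hy', z, hz, hyz⟩
      · exact ⟨y, h1, Relation.ReflTransGen.refl⟩
      · refine ⟨z, hz, ?_⟩
        have h2 : comp adj lab y ⊆ cls adj lab spec x := by
          rw [← cls_eq hs hy]
          exact comp_sub_cls hs y
        have h3 : Relation.ReflTransGen (St adj (cls adj lab spec x)) y y' :=
          rtg_mono adj h2 (comp_cn hs y y (mem_comp y) y' hy')
        exact Relation.ReflTransGen.tail h3 ⟨h2 hy', lab_sub_cls hab hz, hyz⟩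
    have key2 : ∀ z z', lab z = l → lab z' = l →
        Relation.ReflTransGen (St adj (cls adj lab spec x)) z z' := by
      intro z z' hz hz'
      exact rtg_mono adj (fun t ht => lab_sub_cls hab ht) (hc l hl z hz z' hz')
    intro a ha b hb
    obtain ⟨z, hz, h1⟩ := key a ha
    obtain ⟨z', hz', h2⟩ := key b hb
    exact (h1.trans (key2 z z' hz hz')).trans (rtg_symm adj hs h2)

/-- a class does not meet the vertices of a non-special label whose vertices have no special
neighbours, when it contains a vertex of another label class (form used for `out`). -/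
theorem out_not_mem {out : L} (ho : out ∉ spec)
    (hn : ∀ y z, lab y = out → adj y z → lab z ∉ spec) {x : A} (hx : lab x ≠ out) :
    ∀ y ∈ cls adj lab spec x, lab y ≠ out := by
  intro y hy hyo
  rcases hab : ab adj lab spec x with _ | l
  · exact hx (by rw [← (cls_reg hab).2.2.1 y hy]; exact hyo)
  · rcases (cls_spec hab).2 y hy with h1 | ⟨_, y', hy', z, hz, hyz⟩
    · rw [← h1, hyo] at hab
      exact ho (by have := (ab_some hab).1; exact this)
    · have h2 : lab y' = out := by rw [lab_comp hy', hyo]
      exact hn y' z h2 hyz (by rw [hz]; exact (ab_some hab).1)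

end Vale.Agent.P116.H657.Abs
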