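import Mathlib

/-! Choice of the random grid: a `σ` off a null set with several Markov bounds and with a Fatou bound
for a family `T m j` (monotone in `m`; `j → ∞` is the mesh). -/

open MeasureTheory Filter Set
open scoped ENNReal Topology

namespace Vale.Agent.P116.H657

/-- Markov for one function, in the form: the bad set has measure at most 1 over c. -/
theorem markov_bad {Ω : Type*} [MeasurableSpace Ω] (μ : Measure Ω) (g : Ω → ℝ≥0∞)
    (hg : Measurable g) (B : ℝ≥0∞) (hB : ∫⁻ ω, g ω ∂μ ≤ B) (c : ℝ≥0∞) (hc0 : c ≠ 0) (hc : c ≠ ∞) :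
    μ {ω | c * B < g ω} ≤ c⁻¹ := by
  rcases eq_or_ne B 0 with h0 | h0
  · have h1 : ∫⁻ ω, g ω ∂μ = 0 := by
      apply le_antisymm _ zero_le
      rw [← h0]; exact hB
    have h2 : g =ᵐ[μ] 0 := (lintegral_eq_zero_iff hg).1 h1
    have h3 : μ {ω | c * B < g ω} = 0 := by
      have h4 : ∀ᵐ ω ∂μ, ¬ (c * B < g ω) := by
        filter_upwards [h2] with ω hω
        rw [hω, h0]
        simp
      have h5 := ae_iff.1 h4
      simpa using h5
    rw [h3]; exact zero_le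
  rcases eq_or_ne B ∞ with h1 | h1
  · have h3 : {ω | c * B < g ω} = ∅ := by
      ext ω
      simp only [mem_ofPred_eq, mem_empty_iff_false, iff_false, not_lt]
      rw [h1, ENNReal.mul_top hc0]
      exact le_top
    rw [h3, measure_empty]; exact zero_le
  have h2 : c * B ≠ 0 := mul_ne_zero hc0 h0
  have h3 : c * B ≠ ∞ := ENNReal.mul_ne_top hc h1
  have h4 : μ {ω | c * B ≤ g ω} ≤ (∫⁻ ω, g ω ∂μ) / (c * B) :=
    meas_ge_le_lintegral_div hg.aemeasurable h2 h3
  calc μ {ω | c * B < g ω} ≤ μ {ω | c * B ≤ g ω} := measure_mono (fun ω (hω : c * B < g ω) => (hω.le : c * B ≤ g ω))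
    _ ≤ (∫⁻ ω, g ω ∂μ) / (c * B) := h4
    _ ≤ B / (c * B) := ENNReal.div_le_div_right hB _
    _ = c⁻¹ := by
        rw [ENNReal.div_eq_inv_mul, ENNReal.mul_inv (Or.inl hc0) (Or.inl hc), mul_assoc,
          ENNReal.inv_mul_cancel h0 h1, mul_one]

/-- **The choice of `σ`.** -/
theorem exists_sigma {Ω : Type*} [MeasurableSpace Ω] (μ : Measure Ω) [IsProbabilityMeasure μ]
    (T : ℕ → ℕ → Ω → ℝ≥0∞) (hT : ∀ m j, Measurable (T m j))
    (hmono : ∀ m j ω, T m j ω ≤ T (m + 1) j ω)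
    (B : ℝ≥0∞) (hB : ∀ m, liminf (fun j => ∫⁻ ω, T m j ω ∂μ) atTop ≤ B)
    (N : Set Ω) (hN : μ N = 0) (n : ℕ) (g : Fin n → Ω → ℝ≥0∞) (hg : ∀ i, Measurable (g i))
    (Bg : Fin n → ℝ≥0∞) (hBg : ∀ i, ∫⁻ ω, g i ω ∂μ ≤ Bg i) :
    ∃ ω, ω ∉ N ∧ (∀ i, g i ω ≤ (n + 2) * Bg i) ∧
      ∀ m, ∀ b : ℝ≥0∞, (n + 2) * B < b → ∃ᶠ j in atTop, T m j ω < b := by
  classical
  set c : ℝ≥0∞ := (n : ℝ≥0∞) + 2 with hc
  have hc0 : c ≠ 0 := by
    rw [hc]; positivity
  have hct : c ≠ ∞ := by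
    rw [hc]; finiteness
  set A : Ω → ℝ≥0∞ := fun ω => ⨆ m, liminf (fun j => T m j ω) atTop with hA
  have hAm : Measurable A := by
    apply Measurable.iSup
    intro m
    exact Measurable.liminf (fun j => hT m j)
  have hAB : ∫⁻ ω, A ω ∂μ ≤ B := by
    have h1 : ∫⁻ ω, A ω ∂μ = ⨆ m, ∫⁻ ω, liminf (fun j => T m j ω) atTop ∂μ := by
      apply lintegral_iSup (fun m => Measurable.liminf (fun j => hT m j))
      apply monotone_nat_of_le_succ
      intro m ω
      exact liminf_le_liminf (Eventually.of_forall (fun j => hmono m j ω))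
    rw [h1]
    apply iSup_le
    intro m
    exact (lintegral_liminf_le (fun j => hT m j)).trans (hB m)
  -- the bad sets
  have hbadA := markov_bad μ A hAm B hAB c hc0 hct
  have hbadg := fun i => markov_bad μ (g i) (hg i) (Bg i) (hBg i) c hc0 hct
  set Z : Set Ω := {ω | c * B < A ω} ∪ (⋃ i, {ω | c * Bg i < g i ω}) ∪ N with hZ
  have hZ1 : μ Z < 1 := by
    have h1 : μ Z ≤ c⁻¹ + ∑ _i : Fin n, c⁻¹ + 0 := by
      calc μ Z ≤ μ ({ω | c * B < A ω} ∪ (⋃ i, {ω | c * Bg i < g i ω})) + μ N := measure_union_le _ _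
        _ ≤ (μ {ω | c * B < A ω} + μ (⋃ i, {ω | c * Bg i < g i ω})) + μ N := by
            gcongr
            exact measure_union_le _ _
        _ ≤ c⁻¹ + ∑ _i : Fin n, c⁻¹ + 0 := by
            gcongr
            · refine (measure_iUnion_le _).trans ?_
              rw [tsum_fintype]
              exact Finset.sum_le_sum (fun i _ => hbadg i)
            · exact hN.le
    refine lt_of_le_of_lt h1 ?_
    rw [Finset.sum_const, Finset.card_univ, Fintype.card_fin, nsmul_eq_mul, add_zero]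
    have h2 : c⁻¹ + (n : ℝ≥0∞) * c⁻¹ = ((n : ℝ≥0∞) + 1) * c⁻¹ := by ring
    rw [h2, ← div_eq_mul_inv]
    rw [ENNReal.div_lt_iff (Or.inl hc0) (Or.inl hct), one_mul, hc]
    have h3 : (n : ℝ≥0∞) + 1 = ((n + 1 : ℕ) : ℝ≥0∞) := by push_cast; ring
    have h4 : (n : ℝ≥0∞) + 2 = ((n + 2 : ℕ) : ℝ≥0∞) := by push_cast; ring
    rw [h3, h4]
    exact_mod_cast Nat.lt_succ_self (n + 1)
  have hex : ∃ ω, ω ∉ Z := by
    by_contra hcon
    push Not at hcon
    have h1 : Z = univ := eq_univ_of_forall hcon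
    rw [h1, measure_univ] at hZ1
    exact lt_irrefl _ hZ1
  obtain ⟨ω, hω⟩ := hex
  simp only [hZ, mem_union, mem_ofPred_eq, mem_iUnion, not_or, not_exists, not_lt] at hω
  refine ⟨ω, hω.2, fun i => hω.1.2 i, ?_⟩
  intro m b hb
  apply frequently_lt_of_liminf_lt
  · isBoundedDefault
  · refine lt_of_le_of_lt ?_ hb
    refine le_trans ?_ hω.1.1
    exact le_iSup (fun m => liminf (fun j => T m j ω) atTop) m

end Vale.Agent.P116.H657
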